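import Claimed.Agent.R314.Tub.Defs

/-!
# Row 314, TUB : foot points      (architect helper256)   -- KEEP

* `tb_foot_lip`  (PROVED)  the foot point map is 2-Lipschitz within the reach.
* L-TB-F `tb_nearest_normal`  (PROVED)  a nearest point is a foot point (first variation).
   PLAN.  `w ∈ if_Tan d X x` : `w = fderiv ℝ ψ u a`, `ψ u = x`, `u ∈ U` open.   `c s = ψ (u + s • a)` has derivative `w` at `s = 0` (`if_differentiableAt`, chain rule), `c s ∈ X` for small `s` (`if_mem`),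
   `f s = ‖y - c s‖²` has a local minimum at `0` (`hmin`, squares), `HasDerivAt f (2 ⟪y - x, - w⟫) 0` (`HasDerivAt.norm_sq`), `IsLocalMin.hasDerivAt_eq_zero`.
-/

set_option autoImplicit false

open scoped ContDiff InnerProductSpace Topology
open Set Metric Claimed.Agent.R315

namespace Claimed.Agent.R314

variable {V : Type} [NormedAddCommGroup V] [InnerProductSpace ℝ V] [FiniteDimensional ℝ V]

omit [FiniteDimensional ℝ V] in
theorem tb_foot_lip {d : ℕ} {X K : Set V} {C : ℝ}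
    (hC : ∀ x ∈ K, ∀ x' ∈ K, ∀ ν, tbNor d X x ν → |⟪x' - x, ν⟫_ℝ| ≤ C * ‖x' - x‖ ^ 2 * ‖ν‖)
    {x x' ν ν' : V} (hx : x ∈ K) (hx' : x' ∈ K) (hν : tbNor d X x ν) (hν' : tbNor d X x' ν')
    (hs : C * (‖ν‖ + ‖ν'‖) ≤ 1 / 2) : ‖x - x'‖ ≤ 2 * ‖(x + ν) - (x' + ν')‖ := by
  have h1 := hC x hx x' hx' ν hν
  have h2 := hC x' hx' x hx ν' hν'
  rw [norm_sub_rev x' x] at h1
  have e : ‖x - x'‖ ^ 2 = ⟪x - x', (x + ν) - (x' + ν')⟫_ℝ + ⟪x' - x, ν⟫_ℝ + ⟪x - x', ν'⟫_ℝ := by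
    have e1 : (x + ν) - (x' + ν') = (x - x') + ν - ν' := by abel
    have e2 : x' - x = -(x - x') := by abel
    rw [e1, e2, inner_sub_right, inner_add_right, inner_neg_left, real_inner_self_eq_norm_sq]
    ring
  have h3 : ⟪x - x', (x + ν) - (x' + ν')⟫_ℝ ≤ ‖x - x'‖ * ‖(x + ν) - (x' + ν')‖ := real_inner_le_norm _ _
  have h4 := (abs_le.1 h1).2
  have h5 := (abs_le.1 h2).2
  have h6 : C * ‖x - x'‖ ^ 2 * ‖ν‖ + C * ‖x - x'‖ ^ 2 * ‖ν'‖ ≤ 1 / 2 * ‖x - x'‖ ^ 2 := by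
    have : C * ‖x - x'‖ ^ 2 * ‖ν‖ + C * ‖x - x'‖ ^ 2 * ‖ν'‖ = (C * (‖ν‖ + ‖ν'‖)) * ‖x - x'‖ ^ 2 := by ring
    rw [this]
    exact mul_le_mul_of_nonneg_right hs (sq_nonneg _)
  have h7 : ‖x - x'‖ ^ 2 ≤ 2 * (‖x - x'‖ * ‖(x + ν) - (x' + ν')‖) := by linarith
  rcases (norm_nonneg (x - x')).eq_or_lt with h0 | h0
  · rw [← h0]
    positivity
  · have h8 : ‖x - x'‖ * ‖x - x'‖ ≤ ‖x - x'‖ * (2 * ‖(x + ν) - (x' + ν')‖) := by nlinarith
    exact le_of_mul_le_mul_left h8 h0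

/-- L-TB-F -/
theorem tb_nearest_normal {d : ℕ} {X : Set V} {x y : V} (hmin : ∀ x' ∈ X, ‖y - x‖ ≤ ‖y - x'‖) :
    tbNor d X x (y - x) := by
  rintro w ⟨ψ, U, u, a, h, hu, rfl, rfl⟩
  -- the curve
  have hl : HasDerivAt (fun s : ℝ => u + s • a) a 0 := by
    have := ((hasDerivAt_id (0 : ℝ)).smul_const a).const_add u
    simpa using this
  have hψ : HasFDerivAt ψ (fderiv ℝ ψ u) (u + (0 : ℝ) • a) := by
    rw [zero_smul, add_zero]
    exact (if_differentiableAt h hu).hasFDerivAt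
  have hc : HasDerivAt (fun s : ℝ => ψ (u + s • a)) (fderiv ℝ ψ u a) 0 := hψ.comp_hasDerivAt 0 hl
  have hd : HasDerivAt (fun s : ℝ => y - ψ (u + s • a)) (-(fderiv ℝ ψ u a)) 0 := hc.const_sub y
  have hf := hd.norm_sq
  have hU : ∀ᶠ s : ℝ in 𝓝 0, u + s • a ∈ U := by
    have hcont : ContinuousAt (fun s : ℝ => u + s • a) 0 := hl.continuousAt
    apply hcont.eventually_mem
    rw [zero_smul, add_zero]
    exact (if_open h).mem_nhds hu
  have hloc : IsLocalMin (fun s : ℝ => ‖y - ψ (u + s • a)‖ ^ 2) 0 := by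
    filter_upwards [hU] with s hs
    simp only [zero_smul, add_zero]
    exact pow_le_pow_left₀ (norm_nonneg _) (hmin _ (if_mem h hs)) 2
  have h0 := hloc.hasDerivAt_eq_zero hf
  simp only [zero_smul, add_zero, inner_neg_right] at h0
  rw [real_inner_comm]
  linarith

end Claimed.Agent.R314
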