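import Claimed.Agent.R314.Tub.Quad
import Claimed.Agent.R314.Tub.Foot

/-!
# Row 314, TUB : the tubular neighbourhood theorem      (architect helper256)   -- KEEP

`tb_main` : GLUE PROVED from `tb_quad_compact`, `tb_foot_lip`, `tb_nearest_normal`.     (The continuity of the normal projection is `dg_Pn_cont` in `R314/DG/Pn.lean`; `Tub/PnCont.lean` is not imported by anything that pays.)
-/

set_option autoImplicit false

open scoped ContDiff InnerProductSpace Topology NNReal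
open Set Metric Claimed.Agent.R315

namespace Claimed.Agent.R314

variable {V : Type} [NormedAddCommGroup V] [InnerProductSpace ℝ V] [FiniteDimensional ℝ V]

theorem tb_num {C r : ℝ} (hC : 0 ≤ C) (hr : r ≤ 1 / (4 * (C + 1))) {a b : ℝ} (ha : a ≤ r) (hb : b ≤ r) :
    C * (a + b) ≤ 1 / 2 := by
  have h1 : C * (a + b) ≤ C * (2 * (1 / (4 * (C + 1)))) := mul_le_mul_of_nonneg_left (by linarith) hC
  have h2 : C * (2 * (1 / (4 * (C + 1)))) = C / (C + 1) / 2 := by
    field_simp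
    ring
  have h3 : C / (C + 1) ≤ 1 := by
    rw [div_le_one (by linarith)]
    linarith
  linarith

/-- **TUB** -/
theorem tb_main {d : ℕ} {X : Set V} (hX : IsMfd d X) (hc : IsClosed X) :
    ∃ (O : Set V) (π : V → V), IsOpen O ∧ X ⊆ O ∧ ContinuousOn π O ∧ MapsTo π O X ∧ (∀ x ∈ X, π x = x) ∧
      (∀ y ∈ O, dist y (π y) = infDist y X) ∧ (∀ y ∈ O, tbPn d X (π y) (y - π y) = y - π y) ∧
      (∀ K, IsCompact K → K ⊆ X → ∃ r : ℝ, 0 < r ∧ ∀ x ∈ K, ∀ ν, tbPn d X x ν = ν → ‖ν‖ ≤ r →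
        x + ν ∈ O ∧ π (x + ν) = x) := by
  rcases X.eq_empty_or_nonempty with rfl | hne
  · refine ⟨∅, id, isOpen_empty, le_rfl, continuousOn_empty _, mapsTo_empty _ _, fun x hx => absurd hx (notMem_empty x),
      fun y hy => absurd hy (notMem_empty y), fun y hy => absurd hy (notMem_empty y), fun K _ hK => ⟨1, one_pos, ?_⟩⟩
    intro x hx
    exact absurd (hK hx) (notMem_empty x)
  -- nearest points
  have hex : ∀ y : V, ∃ x, x ∈ X ∧ infDist y X = dist y x := fun y => hc.exists_infDist_eq_dist hne y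
  choose π hπX hπd using hex
  have hπle : ∀ y, ∀ x' ∈ X, ‖y - π y‖ ≤ ‖y - x'‖ := by
    intro y x' hx'
    rw [← dist_eq_norm, ← dist_eq_norm, ← hπd y]
    exact infDist_le_dist_of_mem hx'
  have hπn : ∀ y, tbNor d X (π y) (y - π y) := fun y => tb_nearest_normal (hπle y)
  -- constants
  have key : ∀ p : V, ∃ C : ℝ, 0 ≤ C ∧ ∀ x ∈ X ∩ closedBall p 1, ∀ x' ∈ X ∩ closedBall p 1, ∀ ν, tbNor d X x ν →
      |⟪x' - x, ν⟫_ℝ| ≤ C * ‖x' - x‖ ^ 2 * ‖ν‖ := fun p =>
    tb_quad_compact hX ((isCompact_closedBall p 1).inter_left hc) inter_subset_left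
  choose Cf hCf0 hCf using key
  obtain ⟨r0, hr0⟩ : ∃ r0 : V → ℝ, r0 = fun p => min (1 / 2) (1 / (4 * (Cf p + 1))) := ⟨_, rfl⟩
  have hr0pos : ∀ p, 0 < r0 p := by
    intro p
    rw [hr0]
    have := hCf0 p
    exact lt_min (by norm_num) (by positivity)
  have hr0a : ∀ p, r0 p ≤ 1 / 2 := fun p => by rw [hr0]; exact min_le_left _ _
  have hr0b : ∀ p, r0 p ≤ 1 / (4 * (Cf p + 1)) := fun p => by rw [hr0]; exact min_le_right _ _
  -- local Lipschitz estimate
  have hfoot : ∀ p ∈ X, ∀ y ∈ ball p (r0 p), π y ∈ X ∩ closedBall p 1 ∧ ‖y - π y‖ ≤ r0 p := by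
    intro p hp y hy
    have h1 : ‖y - π y‖ ≤ ‖y - p‖ := hπle y p hp
    have h2 : ‖y - p‖ < r0 p := by rwa [mem_ball, dist_eq_norm] at hy
    refine ⟨⟨hπX y, ?_⟩, by linarith⟩
    rw [mem_closedBall, dist_eq_norm]
    have h3 : ‖π y - p‖ ≤ ‖y - π y‖ + ‖y - p‖ := by
      have := norm_sub_le (y - p) (y - π y)
      rw [sub_sub_sub_cancel_left] at this
      linarith
    have := hr0a p
    linarith
  have hlip : ∀ p ∈ X, ∀ y ∈ ball p (r0 p), ∀ y' ∈ ball p (r0 p), ‖π y - π y'‖ ≤ 2 * ‖y - y'‖ := by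
    intro p hp y hy y' hy'
    obtain ⟨a1, a2⟩ := hfoot p hp y hy
    obtain ⟨b1, b2⟩ := hfoot p hp y' hy'
    have h := tb_foot_lip (hCf p) a1 b1 (hπn y) (hπn y') (tb_num (hCf0 p) (hr0b p) a2 b2)
    rwa [add_sub_cancel, add_sub_cancel] at h
  refine ⟨⋃ p ∈ X, ball p (r0 p), π, isOpen_biUnion fun _ _ => isOpen_ball,
    fun p hp => mem_biUnion hp (mem_ball_self (hr0pos p)), ?_, fun y _ => hπX y, ?_, fun y _ => (hπd y).symm,
    fun y _ => (tb_Pn_eq_iff d X _ _).2 (hπn y), ?_⟩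
  · intro y hy
    obtain ⟨p, hp, hyp⟩ := mem_iUnion₂.1 hy
    have hL : LipschitzOnWith 2 π (ball p (r0 p)) := by
      refine LipschitzOnWith.of_dist_le_mul fun a ha b hb => ?_
      rw [dist_eq_norm, dist_eq_norm]
      exact hlip p hp a ha b hb
    exact (hL.continuousOn.continuousAt (isOpen_ball.mem_nhds hyp)).continuousWithinAt
  · intro x hx
    have h1 := hπd x
    rw [infDist_zero_of_mem hx] at h1
    exact (dist_eq_zero.1 h1.symm).symm
  · intro K hK hKX
    have hO : IsOpen (⋃ p ∈ X, ball p (r0 p)) := isOpen_biUnion fun _ _ => isOpen_ball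
    have hKO : K ⊆ ⋃ p ∈ X, ball p (r0 p) := fun p hp => mem_biUnion (hKX hp) (mem_ball_self (hr0pos p))
    obtain ⟨r₁, hr₁, hth⟩ := hK.exists_thickening_subset_open hO hKO
    obtain ⟨C, hC0, hC⟩ := tb_quad_compact hX ((hK.cthickening (r := 1)).inter_left hc) inter_subset_left
    refine ⟨min (min (r₁ / 2) (1 / 2)) (1 / (4 * (C + 1))), lt_min (lt_min (by positivity) (by norm_num)) (by positivity), ?_⟩
    intro x hx ν hν hνr
    have hr1 : ‖ν‖ ≤ r₁ / 2 := hνr.trans ((min_le_left _ _).trans (min_le_left _ _))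
    have hr2 : ‖ν‖ ≤ 1 / 2 := hνr.trans ((min_le_left _ _).trans (min_le_right _ _))
    have hνn : tbNor d X x ν := (tb_Pn_eq_iff d X x ν).1 hν
    have hy : x + ν ∈ ⋃ p ∈ X, ball p (r0 p) := by
      apply hth
      rw [mem_thickening_iff]
      refine ⟨x, hx, ?_⟩
      rw [dist_eq_norm, add_sub_cancel_left]
      linarith
    refine ⟨hy, ?_⟩
    have h1 : ‖x + ν - π (x + ν)‖ ≤ ‖ν‖ := by
      have := hπle (x + ν) x (hKX hx)
      rwa [add_sub_cancel_left] at this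
    have hxK : x ∈ X ∩ cthickening 1 K := ⟨hKX hx, self_subset_cthickening K hx⟩
    have hx'K : π (x + ν) ∈ X ∩ cthickening 1 K := by
      refine ⟨hπX _, mem_cthickening_of_dist_le _ x 1 K hx ?_⟩
      rw [dist_eq_norm]
      have h3 : ‖π (x + ν) - x‖ ≤ ‖x + ν - π (x + ν)‖ + ‖ν‖ := by
        have := norm_sub_le (x + ν - x) (x + ν - π (x + ν))
        rw [sub_sub_sub_cancel_left, add_sub_cancel_left] at this
        linarith
      linarith
    have h := tb_foot_lip hC hxK hx'K hνn (hπn (x + ν))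
      (tb_num hC0 (le_refl _) (hνr.trans (min_le_right _ _)) (h1.trans (hνr.trans (min_le_right _ _))))
    rw [add_sub_cancel, sub_self, norm_zero, mul_zero] at h
    have h0 : x - π (x + ν) = 0 := norm_eq_zero.1 (le_antisymm h (norm_nonneg _))
    exact (sub_eq_zero.1 h0).symm

end Claimed.Agent.R314
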