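import Claimed.Agent.R315.Pack002

/-!
# Row 314 (S0570), block T, package TUB : tubular neighbourhoods of closed submanifolds      (architect helper256)   -- KEEP

`V` = finite dimensional real inner product space, `X ⊆ V` with `IsMfd d X` (language of `R315/Pack001.lean`), tangent vectors `if_Tan d X x` (`R315/Pack002.lean`).
* `tbT d X x`   tangent space (span of `if_Tan d X x`; for `x = ψ u` it is the range of `fderiv ℝ ψ u` : `tb_T_eq`);
* `tbNor d X x ν`   `ν` is normal to `X` at `x`;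
* `tbPn d X x : V →L[ℝ] V`   the orthogonal projection onto the normal space;   `tb_Pn_eq_iff`, `tb_Pn_idem`, `tb_Pn_norm_le`, `tb_Pn_nor`.
EXPORTS of the package: `tb_Pn_cont` (`Tub/PnCont.lean`), `tb_main` (`Tub/Main.lean`).
ROUTE (no inverse function theorem, no normal frames):
 `tb_local_quad` (Taylor + bi-Lipschitz in one parametrisation)  ⟹  `tb_quad_at`  ⟹  `tb_quad_compact` : `|⟪x' - x, ν⟫| ≤ C_K ‖x' - x‖² ‖ν‖` for `x, x' ∈ K` compact, `ν` normal at `x`   (`Tub/Quad.lean`)
 ⟹ `tb_foot_lip` : `‖x - x'‖ ≤ 2 ‖(x + ν) - (x' + ν')‖` if `C (‖ν‖ + ‖ν'‖) ≤ 1/2`;   `tb_nearest_normal` : a nearest point of `y` in `X` is a foot point   (`Tub/Foot.lean`)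
 ⟹ `tb_main` : `O = ⋃_{p ∈ X} ball p (r₀ p)`, `π y` = a nearest point.
-/

set_option autoImplicit false

open scoped ContDiff InnerProductSpace Topology
open Set Metric Claimed.Agent.R315

namespace Claimed.Agent.R314

variable {V : Type} [NormedAddCommGroup V] [InnerProductSpace ℝ V] [FiniteDimensional ℝ V]

/-- the tangent space -/
def tbT (d : ℕ) (X : Set V) (x : V) : Submodule ℝ V := Submodule.span ℝ (if_Tan d X x)

/-- normal vectors -/
def tbNor (d : ℕ) (X : Set V) (x ν : V) : Prop := ∀ w ∈ if_Tan d X x, ⟪w, ν⟫_ℝ = 0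

/-- the normal projection -/
noncomputable def tbPn (d : ℕ) (X : Set V) (x : V) : V →L[ℝ] V :=
  ContinuousLinearMap.id ℝ V - (tbT d X x).starProjection

theorem tb_Pn_apply (d : ℕ) (X : Set V) (x v : V) : tbPn d X x v = v - (tbT d X x).starProjection v := rfl

theorem tb_nor_iff (d : ℕ) (X : Set V) (x ν : V) : tbNor d X x ν ↔ ν ∈ (tbT d X x)ᗮ := by
  rw [Submodule.mem_orthogonal]
  constructor
  · intro h w hw
    induction hw using Submodule.span_induction with
    | mem w hw => exact h w hw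
    | zero => exact inner_zero_left _
    | add a b _ _ ha hb => rw [inner_add_left, ha, hb, add_zero]
    | smul c a _ ha => rw [inner_smul_left, ha, mul_zero]
  · intro h w hw
    exact h w (Submodule.subset_span hw)

theorem tb_Pn_eq_iff (d : ℕ) (X : Set V) (x ν : V) : tbPn d X x ν = ν ↔ tbNor d X x ν := by
  rw [tb_nor_iff, tb_Pn_apply, sub_eq_self, Submodule.starProjection_apply_eq_zero_iff]

theorem tb_Pn_eq_orth (d : ℕ) (X : Set V) (x v : V) : tbPn d X x v = (tbT d X x)ᗮ.starProjection v := by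
  rw [tb_Pn_apply, Submodule.starProjection_orthogonal_val]

/-- the values of the normal projection are normal -/
theorem tb_Pn_nor (d : ℕ) (X : Set V) (x v : V) : tbNor d X x (tbPn d X x v) := by
  rw [tb_nor_iff, tb_Pn_eq_orth]
  exact Submodule.starProjection_apply_mem _ _

theorem tb_Pn_idem (d : ℕ) (X : Set V) (x v : V) : tbPn d X x (tbPn d X x v) = tbPn d X x v :=
  (tb_Pn_eq_iff d X x _).2 (tb_Pn_nor d X x v)

theorem tb_Pn_norm_le (d : ℕ) (X : Set V) (x v : V) : ‖tbPn d X x v‖ ≤ ‖v‖ := by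
  rw [tb_Pn_eq_orth]
  exact Submodule.norm_starProjection_apply_le _ _

/-- the tangent space in a parametrisation -/
theorem tb_T_eq {d : ℕ} {X : Set V} {ψ : E d → V} {U : Set (E d)} (h : IsParam X ψ U) {u : E d} (hu : u ∈ U) :
    tbT d X (ψ u) = LinearMap.range (fderiv ℝ ψ u : E d →ₗ[ℝ] V) := by
  apply le_antisymm
  · apply Submodule.span_le.2
    intro v hv
    obtain ⟨a, rfl⟩ := (if_tan_iff h hu).1 hv
    exact ⟨a, rfl⟩
  · rintro _ ⟨a, rfl⟩
    exact Submodule.subset_span (if_tan_mk h hu a)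

theorem tb_nor_param {d : ℕ} {X : Set V} {ψ : E d → V} {U : Set (E d)} (h : IsParam X ψ U) {u : E d} (hu : u ∈ U)
    {ν : V} (hν : tbNor d X (ψ u) ν) (a : E d) : ⟪fderiv ℝ ψ u a, ν⟫_ℝ = 0 :=
  hν _ (if_tan_mk h hu a)

end Claimed.Agent.R314
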