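import Claimed.Agent.R314.Tub.Defs

/-!
# Row 314, TUB : the reach estimate      (architect helper256)   -- KEEP

* L-TB-Q1 `tb_local_quad`   in one parametrisation, near `u₀ ∈ U` : `‖ψ u' - ψ u - dψ_u (u' - u)‖ ≤ C ‖u' - u‖²`,  `‖u' - u‖ ≤ C ‖ψ u' - ψ u‖`.
   PLAN.  `ψ` is `C^∞` at `u₀` (`if_contDiffAt`).  (a) `fderiv ℝ ψ` is `C¹` at `u₀` (`ContDiffAt.fderiv_right`), so Lipschitz with some constant `L` on a neighbourhood (`ContDiffAt.exists_lipschitzOnWith`);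
   on a ball `B ⊆ U` inside it, for fixed `u ∈ B` the map `w ↦ ψ w - dψ_u w` has derivative `dψ_w - dψ_u` of norm `≤ L ‖w - u‖ ≤ L ‖u' - u‖` on the SEGMENT `[u, u']` (convex subset of `B`):
   `Convex.norm_image_sub_le_of_norm_hasFDerivWithin_le` on `segment ℝ u u'`.
   (b) `dψ_{u₀}` is injective, so `c ‖a‖ ≤ ‖dψ_{u₀} a‖` with `c > 0` (`LinearMap.exists_antilipschitzWith` / `ContinuousLinearMap.antilipschitz_of_injective_of_finiteDimensional`-type lemma);  strict differentiability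
   (`ContDiffAt.hasStrictFDerivAt`, `HasStrictFDerivAt.isLittleO`) gives a ball on which `‖ψ u' - ψ u - dψ_{u₀} (u' - u)‖ ≤ (c/2) ‖u' - u‖`.   Take the smaller ball and `C = max L (2/c)`.
* L-TB-Q2 `tb_quad_at`      near a point `p ∈ X`.
   PLAN.  `ψ, U` a parametrisation with `p = ψ u₀`;  `δ₁, C₁` from Q1;  `if_image_open h isOpen_ball (ball ⊆ U)` : `ψ '' ball u₀ δ₁ = X ∩ O'`, `O'` open, `p ∈ O'` : take `ball p δ ⊆ O'`.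
   For `x = ψ u`, `x' = ψ u'` : `⟪x' - x, ν⟫ = ⟪dψ_u (u' - u), ν⟫ + ⟪rest, ν⟫`, the first term vanishes (`tb_nor_param`), `|⟪rest, ν⟫| ≤ C₁ ‖u' - u‖² ‖ν‖ ≤ C₁ (C₁ ‖x' - x‖)² ‖ν‖`.   `C = C₁³`.
* L-TB-Q3 `tb_quad_compact` on a compact set.
   PLAN.  `δ_p, C_p` from Q2.  Finite subcover of `K` by the balls `ball p (δ_p / 2)` (`IsCompact.elim_nhds_subcover`);  `δ = min δ_p / 2`, `C = max (max C_p) (1/δ)`.
   If `‖x' - x‖ < δ` and `x ∈ ball p (δ_p/2)` then `x' ∈ ball p δ_p` : Q2.   Otherwise `|⟪x' - x, ν⟫| ≤ ‖x' - x‖ ‖ν‖ ≤ (1/δ) ‖x' - x‖² ‖ν‖`.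
-/

set_option autoImplicit false

open scoped ContDiff InnerProductSpace Topology
open Set Metric Claimed.Agent.R315

namespace Claimed.Agent.R314

variable {V : Type} [NormedAddCommGroup V] [InnerProductSpace ℝ V] [FiniteDimensional ℝ V]

/-- L-TB-Q1 -/
theorem tb_local_quad {d : ℕ} {X : Set V} {ψ : E d → V} {U : Set (E d)} (h : IsParam X ψ U) {u₀ : E d} (hu₀ : u₀ ∈ U) :
    ∃ (δ C : ℝ), 0 < δ ∧ 0 ≤ C ∧ ball u₀ δ ⊆ U ∧ ∀ u ∈ ball u₀ δ, ∀ u' ∈ ball u₀ δ,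
      ‖ψ u' - ψ u - fderiv ℝ ψ u (u' - u)‖ ≤ C * ‖u' - u‖ ^ 2 ∧ ‖u' - u‖ ≤ C * ‖ψ u' - ψ u‖ := by
  have hψ : ContDiffAt ℝ ∞ ψ u₀ := if_contDiffAt h hu₀
  -- (a) the derivative is Lipschitz near `u₀`
  have hd : ContDiffAt ℝ 1 (fderiv ℝ ψ) u₀ := hψ.fderiv_right (m := 1) (by norm_cast)
  obtain ⟨L, t, ht, hL⟩ := hd.exists_lipschitzOnWith
  -- (b) the derivative at `u₀` is bounded below
  have hinj : LinearMap.ker (fderiv ℝ ψ u₀ : E d →ₗ[ℝ] V) = ⊥ := LinearMap.ker_eq_bot.2 (h.2.2.1 u₀ hu₀)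
  obtain ⟨K, hK0, hK⟩ := LinearMap.exists_antilipschitzWith (fderiv ℝ ψ u₀ : E d →ₗ[ℝ] V) hinj
  have hst : HasStrictFDerivAt ψ (fderiv ℝ ψ u₀) u₀ := hψ.hasStrictFDerivAt (by simp)
  have hc0 : 0 < (2 * K)⁻¹ := by positivity
  obtain ⟨s, hs, hap⟩ := hst.approximates_deriv_on_nhds (c := (2 * K)⁻¹) (Or.inr hc0)
  obtain ⟨δ, hδ, hball⟩ := Metric.mem_nhds_iff.1 (Filter.inter_mem (Filter.inter_mem ((if_open h).mem_nhds hu₀) ht) hs)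
  refine ⟨δ, max (L : ℝ) (2 * K), hδ, le_max_of_le_left L.2, fun u hu => (hball hu).1.1, ?_⟩
  intro u hu u' hu'
  constructor
  · have hseg : segment ℝ u u' ⊆ ball u₀ δ := (convex_ball u₀ δ).segment_subset hu hu'
    have h1 := Convex.norm_image_sub_le_of_norm_hasFDerivWithin_le' (𝕜 := ℝ) (f := ψ) (f' := fderiv ℝ ψ) (φ := fderiv ℝ ψ u)
      (C := L * ‖u' - u‖) (s := segment ℝ u u') (x := u) (y := u')
      (fun w hw => (if_differentiableAt h (hball (hseg hw)).1.1).hasFDerivAt.hasFDerivWithinAt)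
      (fun w hw => by
        have a1 := hL.norm_sub_le (hball (hseg hw)).1.2 (hball hu).1.2
        have a2 : ‖w - u‖ ≤ ‖u' - u‖ := norm_sub_le_of_mem_segment hw
        exact a1.trans (mul_le_mul_of_nonneg_left a2 L.2))
      (convex_segment u u') (left_mem_segment ℝ u u') (right_mem_segment ℝ u u')
    refine h1.trans ?_
    have e : (L : ℝ) * ‖u' - u‖ * ‖u' - u‖ = L * ‖u' - u‖ ^ 2 := by ring
    rw [e]
    exact mul_le_mul_of_nonneg_right (le_max_left _ _) (by positivity)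
  · have h1 := hap u' (hball hu').2 u (hball hu).2
    have h2 : ‖u' - u‖ ≤ K * ‖fderiv ℝ ψ u₀ (u' - u)‖ := by
      have := hK.le_mul_dist u' u
      rw [dist_eq_norm, dist_eq_norm] at this
      simpa [map_sub] using this
    have h3 : ‖fderiv ℝ ψ u₀ (u' - u)‖ ≤ ‖ψ u' - ψ u‖ + ‖ψ u' - ψ u - fderiv ℝ ψ u₀ (u' - u)‖ := by
      have := norm_sub_le (ψ u' - ψ u) (ψ u' - ψ u - fderiv ℝ ψ u₀ (u' - u))
      simpa using this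
    have hKr : (0 : ℝ) < K := hK0
    have h4 : (K : ℝ) * (((2 * K)⁻¹ : NNReal) * ‖u' - u‖) = ‖u' - u‖ / 2 := by
      push_cast
      field_simp
    have h5 : (K : ℝ) * ‖fderiv ℝ ψ u₀ (u' - u)‖ ≤ K * ‖ψ u' - ψ u‖ + ‖u' - u‖ / 2 := by
      rw [← h4, ← mul_add]
      exact mul_le_mul_of_nonneg_left (h3.trans (by linarith)) hKr.le
    have h6 : ‖u' - u‖ ≤ 2 * K * ‖ψ u' - ψ u‖ := by linarith
    exact h6.trans (mul_le_mul_of_nonneg_right (le_max_right _ _) (norm_nonneg _))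

/-- L-TB-Q2 -/
theorem tb_quad_at {d : ℕ} {X : Set V} (hX : IsMfd d X) {p : V} (hp : p ∈ X) :
    ∃ (δ C : ℝ), 0 < δ ∧ 0 ≤ C ∧ ∀ x ∈ X ∩ ball p δ, ∀ x' ∈ X ∩ ball p δ, ∀ ν, tbNor d X x ν →
      |⟪x' - x, ν⟫_ℝ| ≤ C * ‖x' - x‖ ^ 2 * ‖ν‖ := by
  obtain ⟨ψ, U, h, u₀, hu₀, rfl⟩ := hX p hp
  obtain ⟨δ₁, C₁, hδ₁, hC₁, hsub, hq⟩ := tb_local_quad h hu₀
  obtain ⟨O', hO', hOe⟩ := if_image_open h (isOpen_ball (x := u₀) (ε := δ₁)) hsub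
  have hpO : ψ u₀ ∈ O' := by
    have : ψ u₀ ∈ ψ '' ball u₀ δ₁ := mem_image_of_mem ψ (mem_ball_self hδ₁)
    rw [hOe] at this
    exact this.2
  obtain ⟨δ, hδ, hball⟩ := Metric.isOpen_iff.1 hO' _ hpO
  refine ⟨δ, C₁ ^ 3, hδ, by positivity, ?_⟩
  rintro x ⟨hxX, hxb⟩ x' ⟨hx'X, hx'b⟩ ν hν
  have hx : x ∈ ψ '' ball u₀ δ₁ := by rw [hOe]; exact ⟨hxX, hball hxb⟩
  have hx' : x' ∈ ψ '' ball u₀ δ₁ := by rw [hOe]; exact ⟨hx'X, hball hx'b⟩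
  obtain ⟨u, hu, rfl⟩ := hx
  obtain ⟨u', hu', rfl⟩ := hx'
  obtain ⟨h1, h2⟩ := hq u hu u' hu'
  have h3 : ⟪ψ u' - ψ u, ν⟫_ℝ = ⟪ψ u' - ψ u - fderiv ℝ ψ u (u' - u), ν⟫_ℝ := by
    rw [inner_sub_left (ψ u' - ψ u), tb_nor_param h (hsub hu) hν, sub_zero]
  rw [h3]
  have h4 : ‖u' - u‖ ^ 2 ≤ (C₁ * ‖ψ u' - ψ u‖) ^ 2 := pow_le_pow_left₀ (norm_nonneg _) h2 2
  calc |⟪ψ u' - ψ u - fderiv ℝ ψ u (u' - u), ν⟫_ℝ| ≤ ‖ψ u' - ψ u - fderiv ℝ ψ u (u' - u)‖ * ‖ν‖ := abs_real_inner_le_norm _ _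
    _ ≤ (C₁ * ‖u' - u‖ ^ 2) * ‖ν‖ := mul_le_mul_of_nonneg_right h1 (norm_nonneg _)
    _ ≤ (C₁ * (C₁ * ‖ψ u' - ψ u‖) ^ 2) * ‖ν‖ :=
        mul_le_mul_of_nonneg_right (mul_le_mul_of_nonneg_left h4 hC₁) (norm_nonneg _)
    _ = C₁ ^ 3 * ‖ψ u' - ψ u‖ ^ 2 * ‖ν‖ := by ring

/-- L-TB-Q3 -/
theorem tb_quad_compact {d : ℕ} {X : Set V} (hX : IsMfd d X) {K : Set V} (hK : IsCompact K) (hKX : K ⊆ X) :
    ∃ C : ℝ, 0 ≤ C ∧ ∀ x ∈ K, ∀ x' ∈ K, ∀ ν, tbNor d X x ν → |⟪x' - x, ν⟫_ℝ| ≤ C * ‖x' - x‖ ^ 2 * ‖ν‖ := by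
  have H : ∀ p ∈ K, ∃ (δ C : ℝ), 0 < δ ∧ 0 ≤ C ∧ ∀ x ∈ X ∩ ball p δ, ∀ x' ∈ X ∩ ball p δ, ∀ ν, tbNor d X x ν →
      |⟪x' - x, ν⟫_ℝ| ≤ C * ‖x' - x‖ ^ 2 * ‖ν‖ := fun p hp => tb_quad_at hX (hKX hp)
  choose! δ C hδ hC hq using H
  obtain ⟨t, htK, hcov⟩ := hK.elim_nhds_subcover (fun p => ball p (δ p / 2))
    (fun p hp => ball_mem_nhds p (half_pos (hδ p hp)))
  have s1 : 0 ≤ ∑ p ∈ t, C p := Finset.sum_nonneg fun p hp => hC p (htK p hp)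
  have s2 : 0 ≤ ∑ p ∈ t, 2 / δ p := Finset.sum_nonneg fun p hp => (div_pos two_pos (hδ p (htK p hp))).le
  refine ⟨∑ p ∈ t, C p + ∑ p ∈ t, 2 / δ p, add_nonneg s1 s2, ?_⟩
  intro x hx x' hx' ν hν
  obtain ⟨p, hpt, hxp⟩ : ∃ p ∈ t, x ∈ ball p (δ p / 2) := by
    have := hcov hx
    rw [mem_iUnion₂] at this
    obtain ⟨p, hp, hxp⟩ := this
    exact ⟨p, hp, hxp⟩
  have hpK := htK p hpt
  have hδp := hδ p hpK
  have c1 : C p ≤ ∑ p ∈ t, C p := Finset.single_le_sum (f := C) (fun q hq => hC q (htK q hq)) hpt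
  have c2 : 2 / δ p ≤ ∑ p ∈ t, 2 / δ p :=
    Finset.single_le_sum (f := fun p => 2 / δ p) (fun q hq => (div_pos two_pos (hδ q (htK q hq))).le) hpt
  have n0 : 0 ≤ ‖x' - x‖ ^ 2 * ‖ν‖ := by positivity
  by_cases hclose : ‖x' - x‖ < δ p / 2
  · have hx'p : x' ∈ ball p (δ p) := by
      rw [mem_ball, dist_eq_norm] at hxp ⊢
      have h3 : ‖x' - p‖ ≤ ‖x' - x‖ + ‖x - p‖ := by
        have := norm_add_le (x' - x) (x - p)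
        simpa using this
      linarith
    have hxp' : x ∈ ball p (δ p) := ball_subset_ball (by linarith) hxp
    have h4 := hq p hpK x ⟨hKX hx, hxp'⟩ x' ⟨hKX hx', hx'p⟩ ν hν
    calc |⟪x' - x, ν⟫_ℝ| ≤ C p * (‖x' - x‖ ^ 2 * ‖ν‖) := by rw [← mul_assoc]; exact h4
      _ ≤ (∑ p ∈ t, C p + ∑ p ∈ t, 2 / δ p) * (‖x' - x‖ ^ 2 * ‖ν‖) :=
          mul_le_mul_of_nonneg_right (by linarith) n0
      _ = _ := by ring
  · rw [not_lt] at hclose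
    have h1 : |⟪x' - x, ν⟫_ℝ| ≤ ‖x' - x‖ * ‖ν‖ := abs_real_inner_le_norm _ _
    have h2 : 1 ≤ 2 / δ p * ‖x' - x‖ := by
      rw [div_mul_eq_mul_div, le_div_iff₀ hδp]
      linarith
    have n1 : 0 ≤ ‖x' - x‖ * ‖ν‖ := by positivity
    calc |⟪x' - x, ν⟫_ℝ| ≤ 1 * (‖x' - x‖ * ‖ν‖) := by rw [one_mul]; exact h1
      _ ≤ (2 / δ p * ‖x' - x‖) * (‖x' - x‖ * ‖ν‖) := mul_le_mul_of_nonneg_right h2 n1
      _ = 2 / δ p * (‖x' - x‖ ^ 2 * ‖ν‖) := by ring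
      _ ≤ (∑ p ∈ t, C p + ∑ p ∈ t, 2 / δ p) * (‖x' - x‖ ^ 2 * ‖ν‖) :=
          mul_le_mul_of_nonneg_right (by linarith) n0
      _ = _ := by ring

end Claimed.Agent.R314
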